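import Crest.Agent.KT.Walk

/-! The core linearisation estimate for a group of unitaries near an algebra with a trace vector. -/

set_option autoImplicit false
open scoped ComplexConjugate InnerProductSpace BigOperators
open Filter Topology

namespace Crest.Agent.KT
open Crest.Agent.HH Crest.Agent.GEN

universe u v w

variable {Γ : Type v} [Group Γ] {H : Type u} [NormedAddCommGroup H] [InnerProductSpace ℂ H]
  [CompleteSpace H]

/-- Bounded operator valued functions on `Γ`. -/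
noncomputable abbrev EE (Γ : Type v) (H : Type u) [NormedAddCommGroup H] [InnerProductSpace ℂ H] :=
  lp (fun _ : Γ => H →L[ℂ] H) ⊤

omit [Group Γ] [CompleteSpace H] in
lemma ee_le (g : EE Γ H) (a : Γ) : ‖g a‖ ≤ ‖g‖ := lp.norm_apply_le_norm ENNReal.top_ne_zero g a

/-- A bounded function as an element of `EE`. -/
noncomputable def mkE (f : Γ → H →L[ℂ] H) (B : ℝ) (h : ∀ a, ‖f a‖ ≤ B) : EE Γ H :=
  ⟨f, memℓp_infty ⟨B, by rintro _ ⟨a, rfl⟩; exact h a⟩⟩

omit [CompleteSpace H] in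
lemma ee_norm_le (g : EE Γ H) {B : ℝ} (h : ∀ a, ‖g a‖ ≤ B) : ‖g‖ ≤ B :=
  lp.norm_le_of_forall_le ((norm_nonneg _).trans (h 1)) h

omit [CompleteSpace H] in
lemma bd_aux {c : Γ → H →L[ℂ] H} {γ : ℝ} (hc : ∀ K, ‖c K‖ ≤ γ) (g : EE Γ H) (K b : Γ) :
    ‖c K * g b‖ ≤ γ * ‖g‖ :=
  (norm_mul_le _ _).trans (mul_le_mul (hc K) (ee_le g b) (norm_nonneg _)
    ((norm_nonneg _).trans (hc K)))

/-- The averaging operator with multiplier `c`. -/
noncomputable def Av (m : Mean Γ) (c : Γ → H →L[ℂ] H) (γ : ℝ) (hc : ∀ K, ‖c K‖ ≤ γ) :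
    EE Γ H →L[ℂ] EE Γ H :=
  LinearMap.mkContinuous
    { toFun := fun g => mkE (fun a => opm m fun K => c K * g (K * a)) (γ * ‖g‖) fun a =>
        norm_opm_le m fun K => bd_aux hc g K _
      map_add' := fun g g' => by
        ext1; funext a
        change opm m (fun K => c K * (g (K * a) + g' (K * a))) = opm m _ + opm m _
        simp only [mul_add]
        exact opm_add m (fun K => bd_aux hc g K _) fun K => bd_aux hc g' K _
      map_smul' := fun t g => by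
        ext1; funext a
        change opm m (fun K => c K * (t • g (K * a))) = t • opm m _
        simp only [mul_smul_comm]
        exact opm_smul m (fun K => bd_aux hc g K _) t } γ fun g =>
    ee_norm_le _ fun a => norm_opm_le m fun K => bd_aux hc g K _

lemma Av_apply (m : Mean Γ) (c : Γ → H →L[ℂ] H) (γ : ℝ) (hc : ∀ K, ‖c K‖ ≤ γ) (g : EE Γ H) (a : Γ) :
    Av m c γ hc g a = opm m fun K => c K * g (K * a) := rfl

lemma norm_Av_le (m : Mean Γ) (c : Γ → H →L[ℂ] H) (γ : ℝ) (hc : ∀ K, ‖c K‖ ≤ γ) :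
    ‖Av m c γ hc‖ ≤ γ := LinearMap.mkContinuous_norm_le _ ((norm_nonneg _).trans (hc 1)) _

/-- The relation vector. -/
noncomputable def rel (S : Finset Γ) (l : Γ → ℂ) (Ω : H) (g : EE Γ H) (K G : Γ) : H :=
  (∑ h ∈ S, l h • g (K * h * G)) Ω

/-- The relation seminorm. -/
noncomputable def ee (m : Mean Γ) (S : Finset Γ) (l : Γ → ℂ) (Ω : H) (g : EE Γ H) : ℝ :=
  rm m fun G => rm m fun K => ‖rel S l Ω g K G‖

section
variable (m : Mean Γ) (S : Finset Γ) (l : Γ → ℂ) (Ω : H)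

omit [CompleteSpace H] in
lemma rel_le (g : EE Γ H) (K G : Γ) : ‖rel S l Ω g K G‖ ≤ (∑ h ∈ S, ‖l h‖) * ‖g‖ * ‖Ω‖ := by
  refine (ContinuousLinearMap.le_opNorm _ _).trans ?_
  gcongr
  rw [Finset.sum_mul]
  refine (norm_sum_le _ _).trans (Finset.sum_le_sum fun h _ => ?_)
  rw [norm_smul]; gcongr; exact ee_le g _

omit [CompleteSpace H] in
lemma ee_le' (g : EE Γ H) : ee m S l Ω g ≤ (∑ h ∈ S, ‖l h‖) * ‖g‖ * ‖Ω‖ :=
  rm_le m (fun _ => rm_nonneg m (fun _ => norm_nonneg _) fun _ => rel_le S l Ω g _ _)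
    fun _ => rm_le m (fun _ => norm_nonneg _) fun _ => rel_le S l Ω g _ _

omit [CompleteSpace H] in
lemma ee_nonneg (g : EE Γ H) : 0 ≤ ee m S l Ω g :=
  rm_nonneg m (fun _ => rm_nonneg m (fun _ => norm_nonneg _) fun _ => rel_le S l Ω g _ _)
    fun _ => rm_le m (fun _ => norm_nonneg _) fun _ => rel_le S l Ω g _ _

omit [CompleteSpace H] in
lemma ee_tri (g g' g'' : EE Γ H)
    (h : ∀ K G, ‖rel S l Ω g'' K G‖ ≤ ‖rel S l Ω g K G‖ + ‖rel S l Ω g' K G‖) :
    ee m S l Ω g'' ≤ ee m S l Ω g + ee m S l Ω g' := by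
  unfold ee
  rw [← rm_add]
  refine rm_mono m (B := (∑ h ∈ S, ‖l h‖) * ‖g‖ * ‖Ω‖ + (∑ h ∈ S, ‖l h‖) * ‖g'‖ * ‖Ω‖)
    (fun _ => rm_nonneg m (fun _ => norm_nonneg _) fun _ => rel_le S l Ω g'' _ _) (fun G => ?_)
    fun G => add_le_add (rm_le m (fun _ => norm_nonneg _) fun _ => rel_le S l Ω g _ _)
      (rm_le m (fun _ => norm_nonneg _) fun _ => rel_le S l Ω g' _ _)
  rw [← rm_add]
  exact rm_mono m (fun _ => norm_nonneg _) (fun K => h K G)
    fun K => add_le_add (rel_le S l Ω g _ _) (rel_le S l Ω g' _ _)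

omit [CompleteSpace H] in
lemma ee_add (g g' : EE Γ H) : ee m S l Ω (g + g') ≤ ee m S l Ω g + ee m S l Ω g' :=
  ee_tri m S l Ω g g' _ fun K G => by
    have : rel S l Ω (g + g') K G = rel S l Ω g K G + rel S l Ω g' K G := by
      simp [rel, Finset.sum_add_distrib]
    rw [this]; exact norm_add_le _ _

omit [CompleteSpace H] in
lemma ee_sub (g g' : EE Γ H) : ee m S l Ω (g - g') ≤ ee m S l Ω g + ee m S l Ω g' :=
  ee_tri m S l Ω g g' _ fun K G => by
    have : rel S l Ω (g - g') K G = rel S l Ω g K G - rel S l Ω g' K G := by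
      simp [rel, smul_sub, Finset.sum_sub_distrib]
    rw [this]; exact norm_sub_le _ _

lemma rel_Av_le (c : Γ → H →L[ℂ] H) (γ : ℝ) (hc : ∀ K, ‖c K‖ ≤ γ) (g : EE Γ H) (K G : Γ) :
    ‖rel S l Ω (Av m c γ hc g) K G‖ ≤ γ * rm m fun K' => ‖rel S l Ω g (K' * K) G‖ := by
  have hγ : 0 ≤ γ := (norm_nonneg _).trans (hc 1)
  have e : ∑ h ∈ S, l h • Av m c γ hc g (K * h * G) =
      opm m fun K' => ∑ h ∈ S, l h • (c K' * g (K' * (K * h * G))) :=
    opm_sum m S l (W := fun h K' => c K' * g (K' * (K * h * G))) fun h K' => bd_aux hc g K' _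
  rw [rel, e, ← rm_mul]
  refine norm_opm_apply_le m (B := ∑ h ∈ S, ‖l h‖ * (γ * ‖g‖)) (fun K' => ?_) Ω
    (B' := γ * ((∑ h ∈ S, ‖l h‖) * ‖g‖ * ‖Ω‖)) (fun K' => ?_) fun K' => ?_
  · refine (norm_sum_le _ _).trans (Finset.sum_le_sum fun h _ => ?_)
    rw [norm_smul]; gcongr; exact bd_aux hc g _ _
  · have : (∑ h ∈ S, l h • (c K' * g (K' * (K * h * G)))) Ω = c K' (rel S l Ω g (K' * K) G) := by
      simp [rel, mul_assoc]
    rw [this]
    exact ((c K').le_opNorm _).trans (by gcongr; exact hc K')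
  · gcongr; exact rel_le S l Ω g _ _

variable {m S}

lemma ee_Av_le (W : WM S m) (c : Γ → H →L[ℂ] H) (γ : ℝ) (hc : ∀ K, ‖c K‖ ≤ γ) (g : EE Γ H) :
    ee m S l Ω (Av m c γ hc g) ≤ γ * ee m S l Ω g := by
  have hγ : 0 ≤ γ := (norm_nonneg _).trans (hc 1)
  unfold ee
  rw [← rm_mul]
  refine rm_mono m (B := γ * ((∑ h ∈ S, ‖l h‖) * ‖g‖ * ‖Ω‖))
    (fun _ => rm_nonneg m (fun _ => norm_nonneg _) fun _ => rel_le S l Ω _ _ _) (fun G => ?_)
    fun G => by gcongr; exact rm_le m (fun _ => norm_nonneg _) fun _ => rel_le S l Ω g _ _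
  rw [← W.rm_idem (φ := fun K => ‖rel S l Ω g K G‖) (fun _ => norm_nonneg _)
    fun _ => rel_le S l Ω g _ _, ← rm_mul]
  exact rm_mono m (B := γ * ((∑ h ∈ S, ‖l h‖) * ‖g‖ * ‖Ω‖)) (fun _ => norm_nonneg _)
    (fun K => rel_Av_le m S l Ω c γ hc g K G)
    fun K => by gcongr; exact rm_le m (fun _ => norm_nonneg _) fun _ => rel_le S l Ω g _ _

end

section
variable (π : Γ →* H →L[ℂ] H) (hπ : ∀ a, star (π a) * π a = 1) (hπ' : ∀ a, π a * star (π a) = 1)
  (hn : ∀ a, ‖star (π a)‖ ≤ 1) {S : Finset Γ} {m : Mean Γ} (W : WM S m)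
include hπ hπ' W

omit hπ hπ' W in
lemma star_Av0 (g : EE Γ H) (a : Γ) :
    star (π a) * Av m (fun K => star (π K)) 1 hn g a =
      opm m fun K => star (π (K * a)) * g (K * a) := by
  rw [Av_apply, mul_opm m fun K => bd_aux hn g K _]
  simp only [map_mul, star_mul, mul_assoc]

omit hπ hπ' in
lemma harm_Av0 (g : EE Γ H) (ξ η : H) (a : Γ) :
    ⟪(star (π a) * Av m (fun K => star (π K)) 1 hn g a) ξ, η⟫_ℂ =
      av S fun h => ⟪(star (π (h * a)) * Av m (fun K => star (π K)) 1 hn g (h * a)) ξ, η⟫_ℂ := by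
  have e : ∀ a, ⟪(star (π a) * Av m (fun K => star (π K)) 1 hn g a) ξ, η⟫_ℂ =
      m.L fun K => ⟪(star (π (K * a)) * g (K * a)) ξ, η⟫_ℂ := fun a => by
    rw [star_Av0 π hn, inner_opm m fun K => bd_aux hn g (K * a) (K * a)]
  simp only [e]
  exact W.harmonic (φ := fun b => ⟪(star (π b) * g b) ξ, η⟫_ℂ) (B := 1 * ‖g‖ * ‖ξ‖ * ‖η‖)
    (fun b => (norm_inner_le_norm _ _).trans (by
      gcongr
      exact (ContinuousLinearMap.le_opNorm _ _).trans (by gcongr; exact bd_aux hn g b b))) a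

omit hπ in
lemma Av0_idem : Av m (fun K => star (π K)) 1 hn * Av m (fun K => star (π K)) 1 hn =
    Av m (fun K => star (π K)) 1 hn := by
  ext1 g
  ext1; funext a
  have key : star (π a) * Av m (fun K => star (π K)) 1 hn (Av m (fun K => star (π K)) 1 hn g) a =
      star (π a) * Av m (fun K => star (π K)) 1 hn g a := by
    rw [star_Av0 π hn (Av m (fun K => star (π K)) 1 hn g)]
    refine op_ext fun ξ η => ?_
    rw [inner_opm m fun K => bd_aux (c := fun K => star (π (K * a))) (fun K => hn _) _ K _]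
    exact W.harm' (ψ := fun b => ⟪(star (π b) * Av m (fun K => star (π K)) 1 hn g b) ξ, η⟫_ℂ)
      (B := 1 * ‖Av m (fun K => star (π K)) 1 hn g‖ * ‖ξ‖ * ‖η‖)
      (fun b => (norm_inner_le_norm _ _).trans (by
        gcongr
        exact (ContinuousLinearMap.le_opNorm _ _).trans (by gcongr; exact bd_aux hn _ b b)))
      (harm_Av0 π hn W g ξ η) a
  have := congrArg (fun T => π a * T) key
  simp only [← mul_assoc, hπ', one_mul] at this
  exact this

omit hπ in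
lemma ee_Av0 (l : Γ → ℂ) (hl : ∑ h ∈ S, l h • π h = 0) (Ω : H) (g : EE Γ H) :
    ee m S l Ω (Av m (fun K => star (π K)) 1 hn g) ≤ 0 := by
  set g0 := Av m (fun K => star (π K)) 1 hn g with hg0
  let v : Γ → H := fun a => (star (π a) * g0 a) Ω
  have hv : ∀ a, ‖v a‖ ≤ 1 * ‖g0‖ * ‖Ω‖ := fun a =>
    (ContinuousLinearMap.le_opNorm _ _).trans (by gcongr; exact bd_aux hn _ a a)
  have hd : ∀ a b, ‖v a - v b‖ ≤ 2 * (1 * ‖g0‖ * ‖Ω‖) := fun a b => by
    linarith [norm_sub_le (v a) (v b), hv a, hv b]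
  have h1 : ∀ K G, ‖rel S l Ω g0 K G‖ ≤ ∑ h ∈ S, ‖l h‖ * ‖v (K * h * G) - v G‖ := fun K G => by
    have e1 : ∀ a, g0 a Ω = π a (v a) := fun a => by
      change _ = (π a * (star (π a) * g0 a)) Ω
      rw [← mul_assoc, hπ', one_mul]
    have e2 : ∑ h ∈ S, l h • π (K * h * G) (v G) = 0 := by
      have := congrArg (fun T => (π K * T * π G) (v G)) hl
      simpa [Finset.mul_sum, Finset.sum_mul] using this
    have e3 : rel S l Ω g0 K G = ∑ h ∈ S, l h • π (K * h * G) (v (K * h * G) - v G) := by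
      simp only [rel, ContinuousLinearMap.sum_apply, ContinuousLinearMap.smul_apply, e1, map_sub,
        smul_sub, Finset.sum_sub_distrib, e2, sub_zero]
    rw [e3]
    refine (norm_sum_le _ _).trans (Finset.sum_le_sum fun h _ => ?_)
    rw [norm_smul]
    gcongr
    refine (ContinuousLinearMap.le_opNorm _ _).trans ?_
    have := hn (K * h * G)
    rw [norm_star] at this
    nlinarith [norm_nonneg (v (K * h * G) - v G)]
  have h2 : ee m S l Ω g0 ≤ rm m fun G => ∑ h ∈ S, ‖l h‖ * rm m fun K => ‖v (K * h * G) - v G‖ := by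
    refine rm_mono m (B := ∑ h ∈ S, ‖l h‖ * (2 * (1 * ‖g0‖ * ‖Ω‖)))
      (fun _ => rm_nonneg m (fun _ => norm_nonneg _) fun _ => rel_le S l Ω _ _ _) (fun G => ?_)
      fun G => Finset.sum_le_sum fun h _ => by
        gcongr; exact rm_le m (fun _ => norm_nonneg _) fun _ => hd _ _
    simp only [← rm_mul]
    rw [← rm_sum]
    exact rm_mono m (B := ∑ h ∈ S, ‖l h‖ * (2 * (1 * ‖g0‖ * ‖Ω‖))) (fun _ => norm_nonneg _)
      (fun K => h1 K G) fun K => Finset.sum_le_sum fun h _ => by gcongr; exact hd _ _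
  refine h2.trans ?_
  rw [rm_sum]
  refine (Finset.sum_eq_zero fun h hh => ?_).le
  rw [rm_mul, W.mart hv (fun a η => harm_Av0 π hn W g Ω η a) hh, mul_zero]

include hn in
theorem core (N : VonNeumannAlgebra H) (Ω : H) (htr : ∀ y ∈ N, ‖y Ω‖ = ‖star y Ω‖)
    (δ : ℝ) (hδ : δ ≤ 1 / 100) (n : Γ → H →L[ℂ] H) (hnN : ∀ a, n a ∈ N)
    (hnδ : ∀ a, ‖π a - n a‖ ≤ δ) (k : ℕ) :
    ∃ Φ : Γ → H →L[ℂ] H, (∀ a, Φ a ∈ N) ∧ (∀ a, ‖Φ a - π a‖ ≤ 35 * δ) ∧
      ∀ l : Γ → ℂ, ∑ h ∈ S, l h • π h = 0 →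
        ‖(∑ h ∈ S, l h • Φ h) Ω‖ ≤ (1 / 2) ^ k * (8 * (∑ h ∈ S, ‖l h‖) * ‖Ω‖) := by
  have hδ0 : 0 ≤ δ := (norm_nonneg _).trans (hnδ 1)
  have hπ1 : ∀ a, ‖π a‖ ≤ 1 := fun a => by simpa using hn a
  have hn1 : ∀ a, ‖n a‖ ≤ 1 + δ := fun a => by
    have := norm_sub_le (π a) (π a - n a)
    rw [sub_sub_cancel] at this
    linarith [hπ1 a, hnδ a]
  have hn2 : ∀ a, ‖star (n a)‖ ≤ 2 := fun a => by rw [norm_star]; linarith [hn1 a]
  have hD : ∀ a, ‖star (n a) - star (π a)‖ ≤ δ := fun a => by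
    rw [← star_sub, norm_star, norm_sub_rev]; exact hnδ a
  set A0 := Av m (fun K => star (π K)) 1 hn with hA0
  set A := Av m (fun K => star (n K)) 2 hn2 with hA
  set D := Av m (fun K => star (n K) - star (π K)) δ hD with hDdef
  have hAD : A = A0 + D := by
    ext1 g; ext1; funext a
    change (opm m fun K => star (n K) * g (K * a)) = (opm m fun K => star (π K) * g (K * a)) +
      opm m fun K => (star (n K) - star (π K)) * g (K * a)
    rw [← opm_add m (fun K => bd_aux hn g K _) fun K => bd_aux hD g K _]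
    congr 1; funext K; noncomm_ring
  have hAA0 : ‖A - A0‖ ≤ δ := by rw [hAD, add_sub_cancel_left]; exact norm_Av_le m _ _ hD
  have hA01 : ‖A0‖ ≤ 1 := norm_Av_le m _ _ hn
  obtain ⟨B, b1, b2, b3⟩ := newton A A0 δ hδ (Av0_idem π hπ' hn W) hA01 hAA0 k
  let X : Submodule ℂ (EE Γ H) :=
    { carrier := {g | ∀ a, g a ∈ N}
      add_mem' := fun {g g'} h h' a => add_mem (h a) (h' a)
      zero_mem' := fun a => zero_mem N
      smul_mem' := fun c g h a => N.toStarSubalgebra.smul_mem (h a) c }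
  have hX : ∀ g ∈ X, A g ∈ X := fun g hg a =>
    opm_mem m (fun K => bd_aux hn2 g K _) N fun K => mul_mem (star_mem (hnN K)) (hg _)
  let nE : EE Γ H := mkE n (1 + δ) hn1
  let ι : EE Γ H := mkE π 1 hπ1
  have hι : A0 ι = ι := by
    ext1; funext a
    change opm m (fun K => star (π K) * π (K * a)) = π a
    simp only [map_mul, ← mul_assoc, hπ, one_mul, opm_const]
  have hnE : ‖nE‖ ≤ 1 + δ := ee_norm_le _ hn1
  have hι1 : ‖ι‖ ≤ 1 := ee_norm_le _ hπ1
  have hnι : ‖nE - ι‖ ≤ δ := ee_norm_le _ fun a => by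
    change ‖n a - π a‖ ≤ δ
    rw [norm_sub_rev]; exact hnδ a
  have c1 : ‖B nE - ι‖ ≤ 31 * δ := by
    have e : B nE - ι = (B - A0) nE + A0 (nE - ι) := by
      rw [map_sub, hι, ContinuousLinearMap.sub_apply]; abel
    rw [e]
    have t1 : ‖(B - A0) nE‖ ≤ 29 * δ * (1 + δ) := ((B - A0).le_opNorm _).trans (by gcongr)
    have t2 : ‖A0 (nE - ι)‖ ≤ 1 * δ := (A0.le_opNorm _).trans (by gcongr)
    have := norm_add_le ((B - A0) nE) (A0 (nE - ι))
    nlinarith
  have c2 : ‖B nE‖ ≤ 2 := by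
    have := norm_add_le (B nE - ι) ι
    rw [sub_add_cancel] at this
    linarith
  set f := A (B nE) with hf
  have c3 : ‖f - ι‖ ≤ 33 * δ := by
    have e : f - ι = (A - A0) (B nE) + A0 (B nE - ι) := by
      rw [map_sub, hι, ContinuousLinearMap.sub_apply]; abel
    rw [e]
    have t1 : ‖(A - A0) (B nE)‖ ≤ δ * 2 := ((A - A0).le_opNorm _).trans (by gcongr)
    have t2 : ‖A0 (B nE - ι)‖ ≤ 1 * (31 * δ) := (A0.le_opNorm _).trans (by gcongr)
    have := norm_add_le ((A - A0) (B nE)) (A0 (B nE - ι))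
    linarith
  have hfX : f ∈ X := hX _ (b2 X hX nE hnN)
  have hb : ∀ h G, ‖f (h * G) * star (n G)‖ ≤ ‖f‖ * 2 := fun h G =>
    (norm_mul_le _ _).trans (mul_le_mul (ee_le f _) (hn2 G) (norm_nonneg _) (norm_nonneg _))
  refine ⟨fun h => opm m fun G => f (h * G) * star (n G), fun h => opm_mem m (hb h) N fun G =>
    mul_mem (hfX _) (star_mem (hnN G)), fun h => norm_opm_sub_le m fun G => ?_, fun l hl => ?_⟩
  · have e : f (h * G) * star (n G) - π h =
        (f - ι) (h * G) * star (n G) + π (h * G) * (star (n G) - star (π G)) := by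
      change _ = (f (h * G) - π (h * G)) * star (n G) + _
      rw [mul_sub, map_mul, mul_assoc (π h) (π G) (star (π G)), hπ', mul_one]; noncomm_ring
    rw [e]
    have t1 : ‖(f - ι) (h * G) * star (n G)‖ ≤ 33 * δ * (1 + δ) := (norm_mul_le _ _).trans (by
      gcongr
      · exact (ee_le _ _).trans c3
      · rw [norm_star]; exact hn1 G)
    have t2 : ‖π (h * G) * (star (n G) - star (π G))‖ ≤ 1 * δ :=
      (norm_mul_le _ _).trans (by gcongr; exacts [hπ1 _, hD G])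
    have := norm_add_le ((f - ι) (h * G) * star (n G)) (π (h * G) * (star (n G) - star (π G)))
    nlinarith
  · have hcon : ∀ g, ee m S l Ω (A g) ≤ δ * ee m S l Ω g := fun g => by
      have t1 := ee_add m S l Ω (A0 g) (D g)
      have t2 := ee_Av0 π hπ' hn W l hl Ω g
      have t3 := ee_Av_le l Ω W _ δ hD g
      rw [hAD, ContinuousLinearMap.add_apply]
      linarith
    have d1 := b3 (ee m S l Ω) (ee_nonneg m S l Ω) (ee_add m S l Ω) (ee_sub m S l Ω) hcon nE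
    have d2 := ee_le' m S l Ω nE
    have hL : 0 ≤ ∑ h ∈ S, ‖l h‖ := Finset.sum_nonneg fun _ _ => norm_nonneg _
    rw [opm_sum m S l hb]
    have d3 : ‖opm m (fun G => ∑ h ∈ S, l h • (f (h * G) * star (n G))) Ω‖ ≤
        rm m fun G => 4 * rm m fun K => ‖rel S l Ω (B nE) K G‖ := by
      refine norm_opm_apply_le m (B := ∑ h ∈ S, ‖l h‖ * (‖f‖ * 2)) (fun G => ?_) Ω
        (B' := 4 * ((∑ h ∈ S, ‖l h‖) * ‖B nE‖ * ‖Ω‖)) (fun G => ?_) fun G => ?_
      · refine (norm_sum_le _ _).trans (Finset.sum_le_sum fun h _ => ?_)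
        rw [norm_smul]; gcongr; exact hb h G
      · set a := ∑ h ∈ S, l h • f (h * G) with ha
        have haN : a ∈ N := sum_mem fun h _ => N.toStarSubalgebra.smul_mem (hfX _) _
        have e1 : ∑ h ∈ S, l h • (f (h * G) * star (n G)) = a * star (n G) := by
          simp only [ha, Finset.sum_mul, smul_mul_assoc]
        have e2 : a Ω = rel S l Ω f 1 G := by simp only [rel, one_mul, ha]
        have t1 := rel_Av_le m S l Ω _ 2 hn2 (B nE) 1 G
        simp only [mul_one] at t1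
        rw [e1, htr _ (mul_mem haN (star_mem (hnN G))), star_mul, star_star,
          ContinuousLinearMap.mul_apply]
        refine ((n G).le_opNorm _).trans ?_
        rw [← htr a haN, e2]
        have t2 := hn2 G
        rw [norm_star] at t2
        calc ‖n G‖ * ‖rel S l Ω f 1 G‖ ≤ 2 * (2 * rm m fun K => ‖rel S l Ω (B nE) K G‖) := by
              gcongr
          _ = _ := by ring
      · gcongr; exact rm_le m (fun _ => norm_nonneg _) fun _ => rel_le S l Ω _ _ _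
    rw [rm_mul] at d3
    have d4 : (∑ h ∈ S, ‖l h‖) * ‖nE‖ * ‖Ω‖ ≤ (∑ h ∈ S, ‖l h‖) * 2 * ‖Ω‖ := by
      gcongr; linarith
    calc _ ≤ 4 * ee m S l Ω (B nE) := d3
      _ ≤ 4 * ((1 / 2) ^ k * ((∑ h ∈ S, ‖l h‖) * 2 * ‖Ω‖)) := by
        gcongr
        exact d1.trans (by gcongr; exact d2.trans d4)
      _ = _ := by ring

end

end Crest.Agent.KT
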