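import Crest.Agent.HH.Mean

/-! Operator-valued means and a Newton iteration for almost idempotents. -/

set_option autoImplicit false
open scoped ComplexConjugate InnerProductSpace BigOperators
open Filter Topology

namespace Crest.Agent.KT
open Crest.Agent.HH Crest.Agent.GEN

universe u v w

variable {X : Type v} {H : Type u} [NormedAddCommGroup H] [InnerProductSpace ℂ H] [CompleteSpace H]

/-- Real-valued mean. -/
noncomputable def rm (m : Mean X) (f : X → ℝ) : ℝ := (m.L fun x => (f x : ℂ)).re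

lemma rm_nonneg (m : Mean X) {f : X → ℝ} {B : ℝ} (h0 : ∀ x, 0 ≤ f x) (hB : ∀ x, f x ≤ B) :
    0 ≤ rm m f := m.re_nonneg h0 hB

lemma rm_le (m : Mean X) {f : X → ℝ} {B : ℝ} (h0 : ∀ x, 0 ≤ f x) (hB : ∀ x, f x ≤ B) :
    rm m f ≤ B := m.re_le h0 hB

lemma rm_mono (m : Mean X) {f g : X → ℝ} {B : ℝ} (h0 : ∀ x, 0 ≤ f x) (h : ∀ x, f x ≤ g x)
    (hB : ∀ x, g x ≤ B) : rm m f ≤ rm m g :=
  m.re_mono (B := B) h fun x => by linarith [h0 x, hB x]

lemma rm_add (m : Mean X) (f g : X → ℝ) : rm m (fun x => f x + g x) = rm m f + rm m g := by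
  simp only [rm, Complex.ofReal_add, m.add, Complex.add_re]

lemma rm_mul (m : Mean X) (c : ℝ) (f : X → ℝ) : rm m (fun x => c * f x) = c * rm m f := by
  simp only [rm, Complex.ofReal_mul, m.cmul, Complex.re_ofReal_mul]

lemma rm_const (m : Mean X) (c : ℝ) : rm m (fun _ => c) = c := by
  simp only [rm, m.const, Complex.ofReal_re]

lemma rm_sum {ι : Type*} (m : Mean X) (s : Finset ι) (f : ι → X → ℝ) :
    rm m (fun x => ∑ i ∈ s, f i x) = ∑ i ∈ s, rm m (f i) := by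
  simp only [rm, Complex.ofReal_sum, m.sum, Complex.re_sum]

lemma ofReal_rm (m : Mean X) {f : X → ℝ} {B : ℝ} (h0 : ∀ x, 0 ≤ f x) (hB : ∀ x, f x ≤ B) :
    ((rm m f : ℝ) : ℂ) = m.L fun x => (f x : ℂ) := m.ofReal_re h0 hB

theorem exists_opm (m : Mean X) (W : X → H →L[ℂ] H) (B : ℝ) (hW : ∀ x, ‖W x‖ ≤ B) :
    ∃ T : H →L[ℂ] H, ∀ ξ η, ⟪T ξ, η⟫_ℂ = m.L fun x => ⟪W x ξ, η⟫_ℂ := by
  obtain ⟨x0⟩ := m.nonempty
  have h0 : 0 ≤ B := (norm_nonneg _).trans (hW x0)
  have hlb : ∀ ξ η : H, ‖m.L fun x => ⟪W x ξ, η⟫_ℂ‖ ≤ B * ‖ξ‖ * ‖η‖ := fun ξ η =>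
    m.norm_le fun x => (norm_inner_le_norm _ _).trans (by
      gcongr; exact ((W x).le_opNorm ξ).trans (by gcongr; exact hW x))
  let f : H → StrongDual ℂ H := fun ξ => LinearMap.mkContinuous
    { toFun := fun η => m.L fun x => ⟪W x ξ, η⟫_ℂ
      map_add' := fun η η' => by simp only [inner_add_right, m.add]
      map_smul' := fun c η => by
        simp only [inner_smul_right, m.cmul, RingHom.id_apply, smul_eq_mul] } (B * ‖ξ‖) (hlb ξ)
  let g : H → H := fun ξ => (InnerProductSpace.toDual ℂ H).symm (f ξ)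
  have hg : ∀ ξ η, ⟪g ξ, η⟫_ℂ = m.L fun x => ⟪W x ξ, η⟫_ℂ := fun ξ η => by
    rw [InnerProductSpace.toDual_symm_apply]; rfl
  have hgb : ∀ ξ, ‖g ξ‖ ≤ B * ‖ξ‖ := fun ξ => by
    rw [LinearIsometryEquiv.norm_map]
    exact LinearMap.mkContinuous_norm_le _ (by positivity) _
  exact ⟨LinearMap.mkContinuous
    { toFun := g
      map_add' := fun ξ ξ' => ext_inner_right ℂ fun η => by
        simp only [inner_add_left, hg, map_add, m.add]
      map_smul' := fun c ξ => ext_inner_right ℂ fun η => by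
        simp only [inner_smul_left, hg, map_smul, m.cmul, RingHom.id_apply] } B hgb, hg⟩

open Classical in
/-- The weak mean of a bounded family of operators. -/
noncomputable def opm (m : Mean X) (W : X → H →L[ℂ] H) : H →L[ℂ] H :=
  if h : ∃ T : H →L[ℂ] H, ∀ ξ η, ⟪T ξ, η⟫_ℂ = m.L fun x => ⟪W x ξ, η⟫_ℂ then h.choose else 0

lemma inner_opm (m : Mean X) {W : X → H →L[ℂ] H} {B : ℝ} (hW : ∀ x, ‖W x‖ ≤ B) (ξ η : H) :
    ⟪opm m W ξ, η⟫_ℂ = m.L fun x => ⟪W x ξ, η⟫_ℂ := by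
  have h := exists_opm m W B hW
  unfold opm
  rw [dif_pos h]
  exact h.choose_spec ξ η

/-- A vector which is a weak mean is bounded by the mean of the norms. -/
lemma norm_le_rm (m : Mean X) {v : X → H} {w : H} {g : X → ℝ} {B : ℝ}
    (hw : ∀ η, ⟪w, η⟫_ℂ = m.L fun x => ⟪v x, η⟫_ℂ) (hg : ∀ x, ‖v x‖ ≤ g x) (hB : ∀ x, g x ≤ B) :
    ‖w‖ ≤ rm m g := by
  have h0 : ∀ x, 0 ≤ g x := fun x => (norm_nonneg _).trans (hg x)
  have h1 : ‖w‖ * ‖w‖ ≤ ‖w‖ * rm m g := by
    have h2 := m.le (fun x => ⟪v x, w⟫_ℂ) (fun x => ‖w‖ * g x) (‖w‖ * B)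
      (fun x => mul_le_mul_of_nonneg_left (hB x) (norm_nonneg _)) (fun x => by
        rw [mul_comm]
        exact (norm_inner_le_norm _ _).trans (mul_le_mul_of_nonneg_right (hg x) (norm_nonneg _)))
    rw [← hw, inner_self_eq_norm_sq_to_K] at h2
    have h3 : (m.L fun x => ((‖w‖ * g x : ℝ) : ℂ)).re = ‖w‖ * rm m g := rm_mul m _ _
    rw [h3] at h2
    simpa [sq] using h2
  rcases (norm_nonneg w).eq_or_lt with h | h
  · rw [← h]; exact rm_nonneg m h0 hB
  · exact le_of_mul_le_mul_left h1 h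

lemma norm_opm_apply_le (m : Mean X) {W : X → H →L[ℂ] H} {B : ℝ} (hW : ∀ x, ‖W x‖ ≤ B) (ξ : H)
    {g : X → ℝ} {B' : ℝ} (hg : ∀ x, ‖W x ξ‖ ≤ g x) (hB : ∀ x, g x ≤ B') :
    ‖opm m W ξ‖ ≤ rm m g := norm_le_rm m (inner_opm m hW ξ) hg hB

lemma norm_opm_sub_le (m : Mean X) {W : X → H →L[ℂ] H} {T : H →L[ℂ] H} {B : ℝ}
    (hW : ∀ x, ‖W x - T‖ ≤ B) : ‖opm m W - T‖ ≤ B := by
  obtain ⟨x0⟩ := m.nonempty
  have h0 : 0 ≤ B := (norm_nonneg _).trans (hW x0)
  have hW' : ∀ x, ‖W x‖ ≤ B + ‖T‖ := fun x => by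
    have := norm_add_le (W x - T) T
    rw [sub_add_cancel] at this
    linarith [hW x]
  refine ContinuousLinearMap.opNorm_le_bound _ h0 fun ξ => ?_
  have := norm_le_rm m (v := fun x => (W x - T) ξ) (w := (opm m W - T) ξ)
    (g := fun _ => B * ‖ξ‖) (B := B * ‖ξ‖) (fun η => by
      simp only [ContinuousLinearMap.sub_apply, inner_sub_left, m.sub, m.const, inner_opm m hW'])
    (fun x => ((W x - T).le_opNorm ξ).trans (by gcongr; exact hW x)) (fun _ => le_rfl)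
  rwa [rm_const] at this

lemma norm_opm_le (m : Mean X) {W : X → H →L[ℂ] H} {B : ℝ} (hW : ∀ x, ‖W x‖ ≤ B) :
    ‖opm m W‖ ≤ B := by
  simpa using norm_opm_sub_le m (T := 0) (B := B) (W := W) (by simpa using hW)

lemma op_ext {S T : H →L[ℂ] H} (h : ∀ ξ η, ⟪S ξ, η⟫_ℂ = ⟪T ξ, η⟫_ℂ) : S = T :=
  ContinuousLinearMap.ext fun ξ => ext_inner_right ℂ (h ξ)

lemma mul_opm (m : Mean X) {W : X → H →L[ℂ] H} {B : ℝ} (hW : ∀ x, ‖W x‖ ≤ B) (T : H →L[ℂ] H) :
    T * opm m W = opm m fun x => T * W x := by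
  refine op_ext fun ξ η => ?_
  rw [inner_opm m (B := ‖T‖ * B) fun x => (norm_mul_le _ _).trans (by gcongr; exact hW x)]
  simp only [ContinuousLinearMap.mul_apply, ← ContinuousLinearMap.adjoint_inner_right T,
    inner_opm m hW]

lemma opm_mul (m : Mean X) {W : X → H →L[ℂ] H} {B : ℝ} (hW : ∀ x, ‖W x‖ ≤ B) (T : H →L[ℂ] H) :
    opm m W * T = opm m fun x => W x * T := by
  refine op_ext fun ξ η => ?_
  rw [inner_opm m (B := B * ‖T‖) fun x => (norm_mul_le _ _).trans (by gcongr; exact hW x)]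
  simp only [ContinuousLinearMap.mul_apply, inner_opm m hW]

lemma opm_mem (m : Mean X) {W : X → H →L[ℂ] H} {B : ℝ} (hW : ∀ x, ‖W x‖ ≤ B)
    (N : VonNeumannAlgebra H) (hN : ∀ x, W x ∈ N) : opm m W ∈ N := by
  rw [vn_mem_iff]
  intro y hy
  rw [mul_opm m hW, opm_mul m hW]
  congr 1
  funext x
  exact (vn_mem_iff N _).1 (hN x) y hy

lemma opm_add (m : Mean X) {W W' : X → H →L[ℂ] H} {B B' : ℝ} (hW : ∀ x, ‖W x‖ ≤ B)
    (hW' : ∀ x, ‖W' x‖ ≤ B') : opm m (fun x => W x + W' x) = opm m W + opm m W' := by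
  refine op_ext fun ξ η => ?_
  rw [inner_opm m (B := B + B') fun x => (norm_add_le _ _).trans (add_le_add (hW x) (hW' x))]
  simp only [ContinuousLinearMap.add_apply, inner_add_left, m.add, inner_opm m hW, inner_opm m hW']

lemma opm_smul (m : Mean X) {W : X → H →L[ℂ] H} {B : ℝ} (hW : ∀ x, ‖W x‖ ≤ B) (c : ℂ) :
    opm m (fun x => c • W x) = c • opm m W := by
  refine op_ext fun ξ η => ?_
  rw [inner_opm m (B := ‖c‖ * B) fun x => by rw [norm_smul]; gcongr; exact hW x]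
  simp only [ContinuousLinearMap.smul_apply, inner_smul_left, m.cmul, inner_opm m hW]

lemma opm_const (m : Mean X) (T : H →L[ℂ] H) : opm m (fun _ => T) = T := by
  have := norm_opm_sub_le m (W := fun _ => T) (T := T) (B := 0) (by simp)
  rwa [norm_le_zero_iff, sub_eq_zero] at this

lemma opm_sum {ι : Type*} (m : Mean X) (s : Finset ι) (c : ι → ℂ) {W : ι → X → H →L[ℂ] H} {B : ℝ}
    (hW : ∀ i x, ‖W i x‖ ≤ B) :
    ∑ i ∈ s, c i • opm m (W i) = opm m fun x => ∑ i ∈ s, c i • W i x := by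
  refine op_ext fun ξ η => ?_
  rw [inner_opm m (B := ∑ i ∈ s, ‖c i‖ * B) fun x => (norm_sum_le _ _).trans
    (Finset.sum_le_sum fun i _ => by rw [norm_smul]; gcongr; exact hW i x)]
  simp only [ContinuousLinearMap.sum_apply, ContinuousLinearMap.smul_apply, sum_inner,
    inner_smul_left, m.sum, m.cmul, inner_opm m (hW _)]

/-! ### Newton iteration -/

section newton
variable {E : Type w} [NormedAddCommGroup E] [NormedSpace ℂ E]

/-- One Newton step. -/
noncomputable def nstep (a : E →L[ℂ] E) : E →L[ℂ] E := a * a + a * a + a * a - (a * a * a + a * a * a)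

theorem newton (A A0 : E →L[ℂ] E) (δ : ℝ) (hδ : δ ≤ 1 / 100) (h0 : A0 * A0 = A0) (h1 : ‖A0‖ ≤ 1)
    (h2 : ‖A - A0‖ ≤ δ) (k : ℕ) :
    ∃ B : E →L[ℂ] E, ‖B - A0‖ ≤ 29 * δ ∧
      (∀ X : Submodule ℂ E, (∀ g ∈ X, A g ∈ X) → ∀ g ∈ X, B g ∈ X) ∧
      ∀ e : E → ℝ, (∀ g, 0 ≤ e g) → (∀ g g', e (g + g') ≤ e g + e g') →
        (∀ g g', e (g - g') ≤ e g + e g') → (∀ g, e (A g) ≤ δ * e g) →
        ∀ g, e (B g) ≤ (1 / 2) ^ k * e g := by
  have hδ0 : 0 ≤ δ := (norm_nonneg _).trans h2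
  have hA : ‖A‖ ≤ 1 + δ := by
    have := norm_add_le (A - A0) A0
    rw [sub_add_cancel] at this
    linarith
  have hd0 : ‖A * A - A‖ ≤ 4 * δ := by
    have e1 : A * A - A = (A - A0) * A + A0 * (A - A0) - (A - A0) + (A0 * A0 - A0) := by
      noncomm_ring
    rw [e1, h0, _root_.sub_self, add_zero]
    have t1 := norm_mul_le (A - A0) A
    have t2 := norm_mul_le A0 (A - A0)
    have t3 := norm_sub_le ((A - A0) * A + A0 * (A - A0)) (A - A0)
    have t4 := norm_add_le ((A - A0) * A) (A0 * (A - A0))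
    have t5 : ‖A - A0‖ * ‖A‖ ≤ δ * (1 + δ) := by gcongr
    have t6 : ‖A0‖ * ‖A - A0‖ ≤ 1 * δ := by gcongr
    nlinarith
  suffices h : ∃ B : E →L[ℂ] E, ‖B - A‖ + 7 * ‖B * B - B‖ ≤ 28 * δ ∧
      (∀ X : Submodule ℂ E, (∀ g ∈ X, A g ∈ X) → ∀ g ∈ X, B g ∈ X) ∧
      ∀ e : E → ℝ, (∀ g, 0 ≤ e g) → (∀ g g', e (g + g') ≤ e g + e g') →
        (∀ g g', e (g - g') ≤ e g + e g') → (∀ g, e (A g) ≤ δ * e g) →
        ∀ g, e (B g) ≤ (1 / 8 * (1 / 2) ^ k) * e g by
    obtain ⟨B, b1, b2, b3⟩ := h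
    refine ⟨B, ?_, b2, fun e e0 e1 e2 e3 g => (b3 e e0 e1 e2 e3 g).trans ?_⟩
    · have := norm_add_le (B - A) (A - A0)
      rw [sub_add_sub_cancel] at this
      linarith [norm_nonneg (B * B - B)]
    · have : (0 : ℝ) ≤ (1 / 2) ^ k * e g := mul_nonneg (by positivity) (e0 g)
      nlinarith
  induction k with
  | zero =>
    refine ⟨A, by simp; linarith, fun X h => h, fun e e0 _ _ e3 g => (e3 g).trans ?_⟩
    have := e0 g
    nlinarith
  | succ k ih =>
    obtain ⟨B, b1, b2, b3⟩ := ih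
    have hB : ‖B‖ ≤ 2 := by
      have := norm_add_le (B - A) A
      rw [sub_add_cancel] at this
      linarith [norm_nonneg (B * B - B)]
    set d := B * B - B with hd
    have hdd : ‖d‖ ≤ 1 / 25 := by linarith [norm_nonneg (B - A)]
    have hd0 := norm_nonneg d
    refine ⟨nstep B, ?_, fun X h g hg => ?_, fun e e0 e1 e2 e3 g => ?_⟩
    · have e1 : nstep B - A = (B - A) + (d - (d * B + d * B)) := by
        simp only [nstep, hd]; noncomm_ring
      have e2 : nstep B * nstep B - nstep B =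
          (d * d * d + d * d * d + d * d * d + d * d * d) - (d * d + d * d + d * d) := by
        simp only [nstep, hd]; noncomm_ring
      have t1 : ‖d * B‖ ≤ ‖d‖ * 2 := (norm_mul_le _ _).trans (by gcongr)
      have t2 : ‖d * d‖ ≤ ‖d‖ * (1 / 25) := (norm_mul_le _ _).trans (by gcongr)
      have t3 : ‖d * d * d‖ ≤ ‖d‖ * (1 / 25) * (1 / 25) := (norm_mul_le _ _).trans (by gcongr)
      have t4 : ‖nstep B - A‖ ≤ ‖B - A‖ + 5 * ‖d‖ := by
        rw [e1]
        have a1 := norm_add_le (B - A) (d - (d * B + d * B))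
        have a2 := norm_sub_le d (d * B + d * B)
        have a3 := norm_add_le (d * B) (d * B)
        linarith
      have t5 : ‖nstep B * nstep B - nstep B‖ ≤ 2 / 7 * ‖d‖ := by
        rw [e2]
        have a1 := norm_sub_le (d * d * d + d * d * d + d * d * d + d * d * d)
          (d * d + d * d + d * d)
        have a2 := norm_add_le (d * d * d + d * d * d + d * d * d) (d * d * d)
        have a3 := norm_add_le (d * d * d + d * d * d) (d * d * d)
        have a4 := norm_add_le (d * d * d) (d * d * d)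
        have a5 := norm_add_le (d * d + d * d) (d * d)
        have a6 := norm_add_le (d * d) (d * d)
        linarith
      linarith
    · have c1 := b2 X h _ hg
      have c2 := b2 X h _ c1
      have c3 := b2 X h _ c2
      exact X.sub_mem (X.add_mem (X.add_mem c2 c2) c2) (X.add_mem c3 c3)
    · set η : ℝ := 1 / 8 * (1 / 2) ^ k with hη
      have hη0 : 0 ≤ η := by positivity
      have hη1 : η ≤ 1 / 8 := by
        have : ((1 : ℝ) / 2) ^ k ≤ 1 := pow_le_one₀ (by norm_num) (by norm_num)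
        linarith
      have c1 := b3 e e0 e1 e2 e3 g
      have c2 := b3 e e0 e1 e2 e3 (B g)
      have c3 := b3 e e0 e1 e2 e3 (B (B g))
      have a1 := e2 (B (B g) + B (B g) + B (B g)) (B (B (B g)) + B (B (B g)))
      have a2 := e1 (B (B g) + B (B g)) (B (B g))
      have a3 := e1 (B (B g)) (B (B g))
      have a4 := e1 (B (B (B g))) (B (B (B g)))
      have q1 := e0 g
      have q2 := e0 (B g)
      have q3 := e0 (B (B g))
      have r2 : e (B (B g)) ≤ 1 / 8 * (η * e g) := c2.trans (by gcongr)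
      have r3 : e (B (B (B g))) ≤ 1 / 8 * (1 / 8 * (η * e g)) := c3.trans (by gcongr)
      have : e (nstep B g) ≤ e (B (B g) + B (B g) + B (B g)) + e (B (B (B g)) + B (B (B g))) := a1
      have q4 : 0 ≤ η * e g := mul_nonneg hη0 q1
      have : (1 / 8 * (1 / 2) ^ (k + 1)) * e g = 1 / 2 * (η * e g) := by rw [hη]; ring
      linarith

end newton

end Crest.Agent.KT
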