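import Crest.Agent.KT.Opm

/-! The idempotent mean of a random walk on a group and the martingale estimate. -/

set_option autoImplicit false
open scoped ComplexConjugate InnerProductSpace BigOperators
open Filter Topology

namespace Crest.Agent.KT
open Crest.Agent.HH Crest.Agent.GEN

universe u v w

variable {Γ : Type v} [Group Γ]

/-- Average over a finite set. -/
noncomputable def av (S : Finset Γ) (f : Γ → ℂ) : ℂ := (S.card : ℂ)⁻¹ * ∑ h ∈ S, f h

/-- A mean adapted to the walk with steps uniform on `S`. -/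
structure WM (S : Finset Γ) (m : Mean Γ) : Prop where
  shift : ∀ (φ : Γ → ℂ) (B : ℝ), (∀ x, ‖φ x‖ ≤ B) → m.L φ = m.L fun K => av S fun h => φ (K * h)
  harm : ∀ (ψ : Γ → ℂ) (B : ℝ), (∀ x, ‖ψ x‖ ≤ B) → (∀ a, ψ a = av S fun h => ψ (h * a)) →
    m.L ψ = ψ 1

omit [Group Γ] in
lemma av_L (S : Finset Γ) (m : Mean Γ) (f : Γ → Γ → ℂ) :
    av S (fun h => m.L (f h)) = m.L fun x => av S fun h => f h x := by
  simp only [av]; rw [m.cmul, m.sum]

omit [Group Γ] in
lemma norm_av_le {S : Finset Γ} (hS : S.Nonempty) {f : Γ → ℂ} {B : ℝ} (h : ∀ x, ‖f x‖ ≤ B) :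
    ‖av S f‖ ≤ B := by
  have hc : (0 : ℝ) < S.card := by exact_mod_cast hS.card_pos
  rw [av, norm_mul, norm_inv, Complex.norm_natCast, inv_mul_le_iff₀ hc]
  refine (norm_sum_le _ _).trans ((Finset.sum_le_sum fun i _ => h i).trans ?_)
  simp

/-- One step of the walk. -/
noncomputable def stepM (S : Finset Γ) (hS : S.Nonempty) : Mean Γ :=
  haveI : Nonempty S := hS.to_subtype
  (Mean.avg S).map Subtype.val

omit [Group Γ] in
lemma stepM_L (S : Finset Γ) (hS : S.Nonempty) (f : Γ → ℂ) : (stepM S hS).L f = av S f := by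
  simp only [stepM, Mean.map_L, Mean.avg_L, av, Fintype.card_coe]
  rw [Finset.sum_coe_sort S f]

/-- The law of the walk at time `j`. -/
noncomputable def nuM (S : Finset Γ) (hS : S.Nonempty) : ℕ → Mean Γ
  | 0 => Mean.pure 1
  | j + 1 => (stepM S hS).bind fun h => (nuM S hS j).map fun K => K * h

lemma nuM_succ (S : Finset Γ) (hS : S.Nonempty) (j : ℕ) (φ : Γ → ℂ) :
    (nuM S hS (j + 1)).L φ = (nuM S hS j).L fun K => av S fun h => φ (K * h) := by
  simp only [nuM, Mean.bind_L, Mean.map_L, stepM_L]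
  exact av_L S _ fun h K => φ (K * h)

lemma nuM_harm (S : Finset Γ) (hS : S.Nonempty) (ψ : Γ → ℂ)
    (h : ∀ a, ψ a = av S fun h => ψ (h * a)) (j : ℕ) :
    ∀ a, (nuM S hS j).L (fun K => ψ (K * a)) = ψ a := by
  induction j with
  | zero => intro a; simp [nuM]
  | succ j ih =>
    intro a
    simp only [nuM, Mean.bind_L, Mean.map_L, stepM_L, mul_assoc, ih]
    exact (h a).symm

theorem exists_wm (S : Finset Γ) (hS : S.Nonempty) : ∃ m : Mean Γ, WM S m := by
  let c : ℕ → Mean Γ := fun J => (Mean.avg (Fin (J + 1))).bind fun j => nuM S hS j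
  have hc : ∀ J φ, (c J).L φ = ((J + 1 : ℕ) : ℂ)⁻¹ * ∑ j ∈ Finset.range (J + 1), (nuM S hS j).L φ := by
    intro J φ
    simp only [c, Mean.bind_L, Mean.avg_L, Fintype.card_fin]
    rw [Fin.sum_univ_eq_sum_range (fun j => (nuM S hS j).L φ)]
  obtain ⟨m, hm⟩ := Mean.exists_ulim (hyperfilter ℕ) c
  refine ⟨m, fun φ B hB => ?_, fun ψ B hB h => ?_⟩
  · have h1 := hm φ B hB
    have h2 := hm (fun K => av S fun h => φ (K * h)) B fun K => norm_av_le hS fun h => hB _
    have h3 : Tendsto (fun J => (c J).L (fun K => av S fun h => φ (K * h)) - (c J).L φ)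
        atTop (𝓝 0) := by
      refine squeeze_zero_norm (a := fun J : ℕ => (2 * B) / ((J : ℝ) + 1)) (fun J => ?_) ?_
      · rw [hc, hc, ← mul_sub, ← Finset.sum_sub_distrib]
        simp only [← nuM_succ]
        rw [Finset.sum_range_sub (fun j => (nuM S hS j).L φ), norm_mul, norm_inv,
          Complex.norm_natCast, div_eq_inv_mul]
        push_cast
        gcongr
        have a1 := (nuM S hS (J + 1)).norm_le hB
        have a2 := (nuM S hS 0).norm_le hB
        linarith [norm_sub_le ((nuM S hS (J + 1)).L φ) ((nuM S hS 0).L φ)]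
      · exact tendsto_const_nhds.div_atTop (tendsto_natCast_atTop_atTop.atTop_add tendsto_const_nhds)
    have h4 := h3.mono_left (Nat.hyperfilter_le_atTop)
    have := tendsto_nhds_unique (h2.sub h1) h4
    exact (sub_eq_zero.1 this).symm
  · refine tendsto_nhds_unique (hm ψ B hB) ?_
    have : ∀ J, (c J).L ψ = ψ 1 := fun J => by
      have e : ∀ j, (nuM S hS j).L ψ = ψ 1 := fun j => by
        simpa using nuM_harm S hS ψ h j 1
      rw [hc]
      simp only [e, Finset.sum_const, Finset.card_range, nsmul_eq_mul]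
      rw [← mul_assoc, inv_mul_cancel₀ (by exact_mod_cast Nat.succ_ne_zero J), one_mul]
    simp only [this]
    exact tendsto_const_nhds

namespace WM
variable {S : Finset Γ} {m : Mean Γ} (W : WM S m)
include W

/-- The mean of translates is harmonic. -/
lemma harmonic {φ : Γ → ℂ} {B : ℝ} (hB : ∀ x, ‖φ x‖ ≤ B) (a : Γ) :
    m.L (fun K => φ (K * a)) = av S fun h => m.L fun K => φ (K * (h * a)) := by
  rw [W.shift (fun K => φ (K * a)) B fun _ => hB _, av_L S m fun h K => φ (K * (h * a))]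
  simp only [mul_assoc]

lemma harm' {ψ : Γ → ℂ} {B : ℝ} (hB : ∀ x, ‖ψ x‖ ≤ B) (h : ∀ a, ψ a = av S fun h => ψ (h * a))
    (a : Γ) : m.L (fun K => ψ (K * a)) = ψ a := by
  simpa using W.harm (fun K => ψ (K * a)) B (fun _ => hB _) fun b => by
    simpa only [mul_assoc] using h (b * a)

lemma idem {φ : Γ → ℂ} {B : ℝ} (hB : ∀ x, ‖φ x‖ ≤ B) :
    m.L (fun K => m.L fun K' => φ (K' * K)) = m.L φ := by
  simpa using W.harm (fun K => m.L fun K' => φ (K' * K)) B (fun _ => m.norm_le fun _ => hB _)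
    fun a => W.harmonic hB a

lemma rm_idem {φ : Γ → ℝ} {B : ℝ} (h0 : ∀ x, 0 ≤ φ x) (hB : ∀ x, φ x ≤ B) :
    rm m (fun K => rm m fun K' => φ (K' * K)) = rm m φ := by
  have := W.idem (φ := fun x => (φ x : ℂ)) (B := B) fun x => by
    rw [Complex.norm_real, Real.norm_of_nonneg (h0 x)]; exact hB x
  unfold rm at *
  rw [← this]
  congr 2
  funext K
  exact m.ofReal_re (fun _ => h0 _) fun _ => hB _

lemma rm_shift_le {φ : Γ → ℝ} {B : ℝ} (h0 : ∀ x, 0 ≤ φ x) (hB : ∀ x, φ x ≤ B) {h : Γ}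
    (hh : h ∈ S) : rm m (fun K => φ (K * h)) ≤ S.card * rm m φ := by
  have hc : (0 : ℝ) < S.card := by exact_mod_cast Finset.card_pos.2 ⟨h, hh⟩
  have h1 := W.shift (fun x => (φ x : ℂ)) B fun x => by
    rw [Complex.norm_real, Real.norm_of_nonneg (h0 x)]; exact hB x
  have h2 : rm m φ = (S.card : ℝ)⁻¹ * ∑ h ∈ S, rm m fun K => φ (K * h) := by
    rw [← rm_sum, ← rm_mul]
    unfold rm
    rw [h1]
    simp only [av]
    push_cast
    rfl
  rw [h2, ← mul_assoc, mul_inv_cancel₀ hc.ne', one_mul]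
  exact Finset.single_le_sum (f := fun h => rm m fun K => φ (K * h))
    (fun h _ => rm_nonneg m (fun _ => h0 _) fun _ => hB _) hh

variable {H : Type u} [NormedAddCommGroup H] [InnerProductSpace ℂ H]

/-- Martingale estimate for a bounded (weakly) harmonic vector function. -/
theorem mart {v : Γ → H} {B : ℝ} (hB : ∀ a, ‖v a‖ ≤ B)
    (hv : ∀ a η, ⟪v a, η⟫_ℂ = av S fun h => ⟪v (h * a), η⟫_ℂ) {h : Γ} (hh : h ∈ S) :
    rm m (fun G => rm m fun K => ‖v (K * h * G) - v G‖) = 0 := by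
  have hB0 : 0 ≤ B := (norm_nonneg _).trans (hB 1)
  have hv' : ∀ a η, ⟪η, v a⟫_ℂ = av S fun h => ⟪η, v (h * a)⟫_ℂ := fun a η => by
    rw [← inner_conj_symm, hv]
    simp [av, inner_conj_symm]
  have hq : ∀ a, ‖v a‖ ^ 2 ≤ B ^ 2 := fun a => by gcongr; exact hB a
  have hd : ∀ a b, ‖v a - v b‖ ≤ 2 * B := fun a b => by
    linarith [norm_sub_le (v a) (v b), hB a, hB b]
  have hd2 : ∀ a b, ‖v a - v b‖ ^ 2 ≤ (2 * B) ^ 2 := fun a b => by gcongr; exact hd a b
  have r1 : ∀ G, rm m (fun K => ‖v (K * G) - v G‖ ^ 2) =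
      rm m (fun K => ‖v (K * G)‖ ^ 2) - ‖v G‖ ^ 2 := fun G => by
    have e1 := W.harm' (ψ := fun a => ⟪v a, v G⟫_ℂ) (B := B * B)
      (fun a => (norm_inner_le_norm _ _).trans (by gcongr <;> exact hB _)) (fun a => hv a _) G
    have e2 : ∀ K, ‖v (K * G) - v G‖ ^ 2 =
        ‖v (K * G)‖ ^ 2 + ((-2) * (⟪v (K * G), v G⟫_ℂ).re + ‖v G‖ ^ 2) := fun K => by
      rw [@norm_sub_sq ℂ]; simp; ring
    have e3 := W.harm' (ψ := fun a => ⟪v G, v a⟫_ℂ) (B := B * B)
      (fun a => (norm_inner_le_norm _ _).trans (by gcongr <;> exact hB _)) (fun a => hv' a _) G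
    have e4 : rm m (fun K => (⟪v (K * G), v G⟫_ℂ).re) = ‖v G‖ ^ 2 := by
      have e5 : ∀ K, (((⟪v (K * G), v G⟫_ℂ).re : ℝ) : ℂ) =
          (2 : ℂ)⁻¹ * (⟪v (K * G), v G⟫_ℂ + ⟪v G, v (K * G)⟫_ℂ) := fun K => by
        rw [← inner_conj_symm (v G) (v (K * G)), Complex.add_conj]
        push_cast; ring
      unfold rm
      simp only [e5]
      rw [m.cmul, m.add, e1, e3, inner_self_eq_norm_sq_to_K]
      have : (2 : ℂ)⁻¹ * (((‖v G‖ : ℝ) : ℂ) ^ 2 + ((‖v G‖ : ℝ) : ℂ) ^ 2) = ((‖v G‖ ^ 2 : ℝ) : ℂ) := by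
        push_cast; ring
      exact (congrArg Complex.re this).trans (Complex.ofReal_re _)
    simp only [e2]
    rw [rm_add, rm_add, rm_mul, rm_const, e4]; ring
  have r2 : rm m (fun G => rm m fun K => ‖v (K * G) - v G‖ ^ 2) = 0 := by
    have e1 := W.rm_idem (φ := fun a => ‖v a‖ ^ 2) (fun _ => by positivity) hq
    have e2 := rm_add m (fun G => rm m fun K => ‖v (K * G) - v G‖ ^ 2) fun G => ‖v G‖ ^ 2
    simp only [r1, sub_add_cancel] at e2
    simp only [r1]
    linarith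
  have r3 : rm m (fun G => rm m fun K => ‖v (K * h * G) - v G‖ ^ 2) ≤ 0 := by
    have := rm_mono m (f := fun G => rm m fun K => ‖v (K * h * G) - v G‖ ^ 2)
      (g := fun G => S.card * rm m fun K => ‖v (K * G) - v G‖ ^ 2) (B := S.card * (2 * B) ^ 2)
      (fun G => rm_nonneg m (fun _ => by positivity) fun _ => hd2 _ _)
      (fun G => W.rm_shift_le (φ := fun K => ‖v (K * G) - v G‖ ^ 2) (fun _ => by positivity)
        (fun _ => hd2 _ _) hh)
      (fun G => by gcongr; exact rm_le m (fun _ => by positivity) fun _ => hd2 _ _)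
    rw [rm_mul, r2, mul_zero] at this
    exact this
  refine le_antisymm (le_of_forall_pos_le_add fun t ht => ?_)
    (rm_nonneg m (B := 2 * B) (fun G => rm_nonneg m (fun _ => norm_nonneg _) fun _ => hd _ _)
      fun G => rm_le m (fun _ => norm_nonneg _) fun _ => hd _ _)
  have key : ∀ G, rm m (fun K => ‖v (K * h * G) - v G‖) ≤
      t + t⁻¹ * rm m fun K => ‖v (K * h * G) - v G‖ ^ 2 := fun G => by
    have := rm_mono m (f := fun K => ‖v (K * h * G) - v G‖)
      (g := fun K => t + t⁻¹ * ‖v (K * h * G) - v G‖ ^ 2) (B := t + t⁻¹ * (2 * B) ^ 2)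
      (fun _ => norm_nonneg _) (fun K => by
        set x := ‖v (K * h * G) - v G‖
        have : t⁻¹ * x ^ 2 + t - x = t⁻¹ * ((x - t) ^ 2 + x * t) := by field_simp; ring
        have h2 : 0 ≤ t⁻¹ * ((x - t) ^ 2 + x * t) := by
          have : 0 ≤ x := norm_nonneg _
          positivity
        linarith) (fun K => by gcongr; exact hd _ _)
    rwa [rm_add, rm_const, rm_mul] at this
  have := rm_mono m (B := t + t⁻¹ * (2 * B) ^ 2)
    (fun G => rm_nonneg m (fun _ => norm_nonneg _) fun _ => hd _ _) key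
    (fun G => by gcongr; exact rm_le m (fun _ => by positivity) fun _ => hd2 _ _)
  rw [rm_add, rm_const, rm_mul] at this
  have h5 : t⁻¹ * rm m (fun G => rm m fun K => ‖v (K * h * G) - v G‖ ^ 2) ≤ 0 :=
    mul_nonpos_of_nonneg_of_nonpos (by positivity) r3
  linarith

end WM

end Crest.Agent.KT
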